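import Vale.Agent.P032.H635.W.RunW

/-!
# P032: the run of the states of the wild machine, part 2: state literals and certified patterns

* `okW`, `rnW`, `svW`, `bv_rn` : state atoms and their readings 0 (start), 1 (before), 2 (after), 3 (end),
* `PatW`, `pdrW` : **a set of clauses of states which holds at the start, is kept by every transition and fails at the
  end shows that `P` is not realised**,
* `QyW`, `patW_of_q`, `qyW_of_chk` : the same from queries and certificates.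
-/

open Set Filter Topology Metric

noncomputable section

namespace Vale.Agent.P032.H635.W

open Vale.Agent.P032.Six Vale.Agent.P032.H892 Vale.Agent.P032.H913 Vale.Agent.P032.S5.H767 Vale.Agent.P032.H61
  Vale.Agent.P032.H357 Vale.Agent.P032.H357.MK Vale.Agent.P032.H556 Vale.Agent.P032.H515 Vale.Agent.P032.H993.MkW
open Vale.Agent.P032.H240.W (MdW lv Ho Ag ag_bv bV bW bL bLT bLU bLE bOD bS60 bAp bBm bAR bAL lv_ps lv_ng vx genW chkG
  chkW_sound)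
open Vale.Agent.P032.H820.K (nbf En a0 a1 a2 a3 a4 ps ng)

variable {U : Fin 6 → Set ℂ} {T : ℂ → Set (Fin 6)} {NP NW TB TC : ℕ} {okB ok0B : ℕ → Bool} {rB : ℕ → ℕ → ℕ}

/-! ### state atoms -/

/-- the reading of a state atom: `r = 0` start, `1` before, `2` after, `3` end -/
def rAW (r kd c m k q : ℕ) : ℕ :=
  bif Nat.beq kd 12 then
    (bif Nat.beq k 1 then
      (bif Nat.beq r 0 then En 12 c m 3 q else bif Nat.beq r 1 then En 0 c (Nat.mul 2 m) 0 q else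
        bif Nat.beq r 2 then En 12 c m 1 q else En 12 c m 0 q) else
      (bif Nat.beq r 0 then En 12 c m 0 q else bif Nat.beq r 1 then En 12 c m 2 q else
        bif Nat.beq r 2 then En 0 c (Nat.succ (Nat.mul 2 m)) 0 q else En 12 c m 4 q)) else
  bif Nat.beq kd 7 || (Nat.beq kd 11 && Nat.ble 4 k) then En kd c (tk r m) (Nat.add (Nat.div (sr r) 2) k) q else
  En kd c (tk r m) (Nat.add (sr r) k) q

/-- the reading of a state atom (number) -/
def rnW (rB : ℕ → ℕ → ℕ) (r n : ℕ) : ℕ :=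
  bif Nat.beq (Nat.mod n 16) 14 then rB r n else
  rAW r (Nat.mod n 16) (Nat.mod (Nat.div n 16) 4096) (Nat.mod (Nat.div n 65536) 256) (Nat.mod (Nat.div n 16777216) 8)
    (Nat.div n 134217728)

/-- the reading of a state literal -/
def rdW (rB : ℕ → ℕ → ℕ) (r l : ℕ) : ℕ := Nat.add (Nat.mul 2 (rnW rB r (Nat.div l 2))) (Nat.mod l 2)

/-- the reading of a clause -/
def rcW (rB : ℕ → ℕ → ℕ) (r : ℕ) (c : List ℕ) : List ℕ := c.map (rdW rB r)

/-- admissible state atoms -/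
def okW (okB : ℕ → Bool) (NW TC n : ℕ) : Bool :=
  bif Nat.beq (Nat.mod n 16) 14 then okB n else
  ((Nat.ble (Nat.succ (Nat.mod (Nat.div n 16) 4096)) NW && fx0 TC (Nat.mod (Nat.div n 16) 4096)) &&
    Nat.ble (Nat.succ (Nat.mod (Nat.div n 65536) 256)) 6) &&
  (bif Nat.beq (Nat.mod n 16) 12 then
      Nat.beq (Nat.mod (Nat.div n 16777216) 8) 1 || Nat.beq (Nat.mod (Nat.div n 16777216) 8) 2
    else bif Nat.beq (Nat.mod n 16) 9 || Nat.beq (Nat.mod n 16) 10 then Nat.ble (Nat.mod (Nat.div n 16777216) 8) 1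
    else bif Nat.beq (Nat.mod n 16) 11 then
      Nat.ble (Nat.mod (Nat.div n 16777216) 8) 1 || (Nat.beq (Nat.mod (Nat.div n 16777216) 8) 4 ||
        Nat.beq (Nat.mod (Nat.div n 16777216) 8) 6)
    else Nat.beq (Nat.mod n 16) 7 && Nat.beq (Nat.mod (Nat.div n 16777216) 8) 1)

theorem okW_spec {n : ℕ} (h : okW okB NW TC n = true) : (a0 n = 14 ∧ okB n = true) ∨
    (a0 n ≠ 14 ∧ (a1 n < NW ∧ fx0 TC (a1 n) = true) ∧ a2 n < 6 ∧
      ((a0 n = 12 ∧ (a3 n = 1 ∨ a3 n = 2)) ∨ ((a0 n = 9 ∨ a0 n = 10) ∧ a3 n ≤ 1) ∨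
        (a0 n = 11 ∧ (a3 n ≤ 1 ∨ a3 n = 4 ∨ a3 n = 6)) ∨ (a0 n = 7 ∧ a3 n = 1))) := by
  unfold okW at h
  have e0 : Nat.mod n 16 = a0 n := rfl
  have e1 : Nat.mod (Nat.div n 16) 4096 = a1 n := rfl
  have e2 : Nat.mod (Nat.div n 65536) 256 = a2 n := rfl
  have e3 : Nat.mod (Nat.div n 16777216) 8 = a3 n := rfl
  rw [e0, e1, e2, e3] at h
  simp only [Bool.cond_eq_ite, Bool.or_eq_true, nbeq] at h
  split_ifs at h with k0 k1 k2 k3
  · exact Or.inl ⟨k0, h⟩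
  · rw [Bool.and_eq_true, Bool.and_eq_true, Bool.and_eq_true, Nat.ble_eq, Nat.ble_eq, Bool.or_eq_true, nbeq,
      nbeq] at h
    exact Or.inr ⟨k0, h.1.1, h.1.2, Or.inl ⟨k1, h.2⟩⟩
  · rw [Bool.and_eq_true, Bool.and_eq_true, Bool.and_eq_true, Nat.ble_eq, Nat.ble_eq, Nat.ble_eq] at h
    exact Or.inr ⟨k0, h.1.1, h.1.2, Or.inr (Or.inl ⟨k2, h.2⟩)⟩
  · rw [Bool.and_eq_true, Bool.and_eq_true, Bool.and_eq_true, Nat.ble_eq, Nat.ble_eq, Bool.or_eq_true,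
      Bool.or_eq_true, Nat.ble_eq, nbeq, nbeq] at h
    exact Or.inr ⟨k0, h.1.1, h.1.2, Or.inr (Or.inr (Or.inl ⟨k3, h.2⟩))⟩
  · rw [Bool.and_eq_true, Bool.and_eq_true, Bool.and_eq_true, Nat.ble_eq, Nat.ble_eq, Bool.and_eq_true, nbeq,
      nbeq] at h
    exact Or.inr ⟨k0, h.1.1, h.1.2, Or.inr (Or.inr (Or.inr h.2))⟩

open Classical in
/-- the value of a state atom; `xb` : the values of the state atoms of the kind 14 -/
def svW (σ : Equiv.Perm (Fin 6)) (U : Fin 6 → Set ℂ) (T : ℂ → Set (Fin 6)) (Z : Cn NW TC → ℂ)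
    (s : Cn NW TC × Fin 6 → SP) (A D : GB (Cn NW TC)) (xb : ℕ → Prop) (n : ℕ) : Prop :=
  if a0 n = 14 then xb n else
  if h : (a1 n < NW ∧ fx0 TC (a1 n) = true) ∧ a2 n < 6 then
    if a0 n = 12 then (if a3 n = 1 then A ⟨a1 n, h.1⟩ ⟨a2 n, h.2⟩ (co σ (a4 n))
      else D ⟨a1 n, h.1⟩ ⟨a2 n, h.2⟩ (co σ (a4 n))) else
    if a0 n = 9 then nio σ (sgp U T (Z ⟨a1 n, h.1⟩) (s (⟨a1 n, h.1⟩, ⟨a2 n, h.2⟩))) (a3 n) = a4 n else
    if a0 n = 10 then (if (sgp U T (Z ⟨a1 n, h.1⟩) (s (⟨a1 n, h.1⟩, ⟨a2 n, h.2⟩))).1 ∈ T (Z ⟨a1 n, h.1⟩) ∧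
        (sgp U T (Z ⟨a1 n, h.1⟩) (s (⟨a1 n, h.1⟩, ⟨a2 n, h.2⟩))).2 ∈ T (Z ⟨a1 n, h.1⟩)
      then nio σ (sgp U T (Z ⟨a1 n, h.1⟩) (s (⟨a1 n, h.1⟩, ⟨a2 n, h.2⟩))) (a3 n) else 6) = a4 n else
    if a0 n = 11 then
      (if a3 n < 4 then co σ (a4 n) ∈ cm (a3 n) (s (⟨a1 n, h.1⟩, ⟨a2 n, h.2⟩)) else
        if a3 n < 6 then (co σ (a4 n) ∈ cm 0 (s (⟨a1 n, h.1⟩, ⟨a2 n, h.2⟩)) ∨
          co σ (a4 n) ∈ cm 1 (s (⟨a1 n, h.1⟩, ⟨a2 n, h.2⟩))) else
        ((co σ (a4 n) ∈ cm 0 (s (⟨a1 n, h.1⟩, ⟨a2 n, h.2⟩)) ∨ co σ (a4 n) ∈ cm 1 (s (⟨a1 n, h.1⟩, ⟨a2 n, h.2⟩))) ∧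
          ¬ co σ (a4 n) ∈ T (Z ⟨a1 n, h.1⟩))) else
      (co σ (a4 n) ∈ T (Z ⟨a1 n, h.1⟩) ∧ ¬ (co σ (a4 n) ∈ cm 0 (s (⟨a1 n, h.1⟩, ⟨a2 n, h.2⟩)) ∨
        co σ (a4 n) ∈ cm 1 (s (⟨a1 n, h.1⟩, ⟨a2 n, h.2⟩))))
  else False

/-- the value of a state literal -/
def slW (σ : Equiv.Perm (Fin 6)) (U : Fin 6 → Set ℂ) (T : ℂ → Set (Fin 6)) (Z : Cn NW TC → ℂ)
    (s : Cn NW TC × Fin 6 → SP) (A D : GB (Cn NW TC)) (xb : ℕ → Prop) (l : ℕ) : Prop :=
  if l % 2 = 0 then svW σ U T Z s A D xb (l / 2) else ¬ svW σ U T Z s A D xb (l / 2)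

/-- the letters of the reading `r` -/
def stvW (r : ℕ) (s0 L R s1 : Cn NW TC × Fin 6 → SP) : Cn NW TC × Fin 6 → SP :=
  if r = 0 then s0 else if r = 1 then L else if r = 2 then R else s1

/-- the letter at the tick of the reading -/
theorem stW_tk {s0 s1 L R : Cn NW TC × Fin 6 → SP} {c : Cn NW TC} {r m : ℕ} (hr : r < 4) (hm : m < 6) :
    stW s0 s1 L R c (tk r m) (sr r / 2) = stvW r s0 L R s1 (c, ⟨m, hm⟩) := by
  unfold stW stvW
  interval_cases r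
  · have h1 : tk 0 m = 2 * m := rfl
    have h2 : sr 0 = 2 := rfl
    rw [h1, h2, if_pos (by omega), if_pos (by norm_num), show 2 * m / 2 = m by omega, f6_lt hm, if_pos rfl]
  · have h1 : tk 1 m = 2 * m + 1 := rfl
    have h2 : sr 1 = 0 := rfl
    rw [h1, h2, if_neg (by omega), if_neg (by norm_num), show (2 * m + 1) / 2 = m by omega, f6_lt hm]
    norm_num
  · have h1 : tk 2 m = 2 * m + 1 := rfl
    have h2 : sr 2 = 2 := rfl
    rw [h1, h2, if_neg (by omega), if_pos (by norm_num), show (2 * m + 1) / 2 = m by omega, f6_lt hm]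
    norm_num
  · have h1 : tk 3 m = (2 * m + 2) % 12 := rfl
    have h2 : sr 3 = 0 := rfl
    have h3 : f6 ((2 * m + 2) % 12 / 2 + 5) = ⟨m, hm⟩ := by
      unfold f6
      apply Fin.ext
      show ((2 * m + 2) % 12 / 2 + 5) % 6 = m
      omega
    rw [h1, h2, if_pos (by omega), if_neg (by norm_num), h3]
    norm_num

section
variable {h : Irr U T} {B : Tb NP NW TB TC} {z : ℂ} {σ : Equiv.Perm (Fin 6)} {u1 u : ℝ} {hu : u ∈ Ioo u1 (u1 + 1)}
  {s0 s1 L R : Cn NW TC × Fin 6 → SP} {W : WD NW} {J : ℕ → ℕ → ℕ → ℕ}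
  {D : DtW U T NP NW TB TC z σ u1 u s0 s1 L R W J} {X : ℕ → ℕ → ℕ → ℕ → Prop} {n : ℕ}

/-- **the readings of state atoms** -/
theorem bv_rn (hrB : ∀ r n, okB n = true → a0 (rB r n) = 14) {r : ℕ} (hr : r < 4) (hn : okW okB NW TC n = true) :
    (mkW h B hu D X).bv (rnW rB r n) ↔ svW σ U T (Zf u1 TC z NW) (stvW r s0 L R s1) (bAw (shD T (Zf u1 TC z NW)) r u1 u)
      (bBw (shD T (Zf u1 TC z NW)) r u1 u) (fun n => X (a1 (rB r n)) (a2 (rB r n)) (a3 (rB r n)) (a4 (rB r n))) n := by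
  rcases okW_spec hn with ⟨h14, h1⟩ | ⟨hne, hc, hm, hk⟩
  · have e : rnW rB r n = rB r n := by
      unfold rnW
      have : Nat.beq (Nat.mod n 16) 14 = true := nbeq.2 h14
      rw [this, cond_true]
    rw [e]
    unfold svW
    rw [if_pos h14]
    unfold MdW.bv
    rw [hrB r n h1]
    norm_num
    exact Iff.rfl
  have hc4 : a1 n < 4096 := Nat.mod_lt _ (by norm_num)
  have eZ : Yt (t2 u1 u) 2 TC z (a1 n) = Zf u1 TC z NW ⟨a1 n, hc⟩ := yt_yc hc.2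
  have A := tick_t2 hu
  have hg := ag_bv (mkW h B hu D X)
  unfold svW
  rw [if_neg hne, dif_pos (⟨hc, hm⟩ : (a1 n < NW ∧ fx0 TC (a1 n) = true) ∧ a2 n < 6)]
  have e : rnW rB r n = rAW r (a0 n) (a1 n) (a2 n) (a3 n) (a4 n) := by
    unfold rnW
    have : Nat.beq (Nat.mod n 16) 14 = false := by
      rw [← Bool.not_eq_true, nbeq]; exact hne
    rw [this, cond_false]
    rfl
  rw [e]
  have htk : tk r (a2 n) < 256 := by
    interval_cases r
    · show 2 * a2 n < 256; omega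
    · show 2 * a2 n + 1 < 256; omega
    · show 2 * a2 n + 1 < 256; omega
    · show (2 * a2 n + 2) % 12 < 256; omega
  have hsd : sr r / 2 < 2 := by
    interval_cases r
    · show 2 / 2 < 2; norm_num
    · show 0 / 2 < 2; norm_num
    · show 2 / 2 < 2; norm_num
    · show 0 / 2 < 2; norm_num
  have hsr : sr r ≤ 2 ∧ sr r % 2 = 0 := by
    interval_cases r
    · show 2 ≤ 2 ∧ 2 % 2 = 0; norm_num
    · show 0 ≤ 2 ∧ 0 % 2 = 0; norm_num
    · show 2 ≤ 2 ∧ 2 % 2 = 0; norm_num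
    · show 0 ≤ 2 ∧ 0 % 2 = 0; norm_num
  have hst := stW_tk (s0 := s0) (s1 := s1) (L := L) (R := R) (c := (⟨a1 n, hc⟩ : Cn NW TC)) hr hm
  have eLT : ∀ {io}, io < 2 → ∀ q, ((mkW h B hu D X).LT (a1 n) (tk r (a2 n)) (sr r / 2) io q ↔
      co σ q ∈ cm io (stvW r s0 L R s1 (⟨a1 n, hc⟩, ⟨a2 n, hm⟩))) := fun {io} hio q => by
    rw [← hst]
    exact lt_st (⟨a1 n, hc⟩ : Cn NW TC) hsd hio
  have eLU : ∀ q, ((mkW h B hu D X).LU (a1 n) (tk r (a2 n)) (sr r / 2) q ↔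
      (co σ q ∈ cm 0 (stvW r s0 L R s1 (⟨a1 n, hc⟩, ⟨a2 n, hm⟩)) ∨
        co σ q ∈ cm 1 (stvW r s0 L R s1 (⟨a1 n, hc⟩, ⟨a2 n, hm⟩)))) := fun q => by
    unfold MdW.LU
    rw [eLT (by norm_num), eLT (by norm_num)]
  have eT : ∀ q, ((mkW h B hu D X).T (a1 n) q ↔ co σ q ∈ T (Zf u1 TC z NW ⟨a1 n, hc⟩)) := fun q => by
    show co σ q ∈ T (Yt (t2 u1 u) 2 TC z (a1 n)) ↔ _
    rw [eZ]
  have eW : ∀ io, (mkW h B hu D X).W (a1 n) (tk r (a2 n)) (sr r / 2) io =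
      nio σ (sgp U T (Zf u1 TC z NW ⟨a1 n, hc⟩) (stvW r s0 L R s1 (⟨a1 n, hc⟩, ⟨a2 n, hm⟩))) io := fun io => by
    rw [← hst]
    exact w_st (⟨a1 n, hc⟩ : Cn NW TC) hsd
  rcases hk with ⟨hk, hk1⟩ | ⟨hk, hk1⟩ | ⟨hk, hk1⟩ | ⟨hk, hk1⟩
  · rw [if_pos hk, hk]
    rcases hk1 with hk1 | hk1
    · rw [if_pos hk1, hk1]
      interval_cases r
      · refine (bAR hg hc4 (by omega)).trans ?_
        show AccR (shD T (Yt (t2 u1 u) 2 TC z) (a1 n) (co σ (a4 n))) (t2 u1 u 0 + (a2 n : ℕ)) ↔ _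
        rw [t2_zero, shd_tr eZ]
        exact Iff.rfl
      · refine (bV hg hc4 (show 2 * a2 n < 256 by omega) (by norm_num)).trans ?_
        have h1 := al_iff (Z := Yt (t2 u1 u) 2 TC z) (c := a1 n) (q := co σ (a4 n)) (m := ⟨a2 n, hm⟩) A h
        rw [t2_zero, t2_one] at h1
        exact h1.symm.trans (cal_tr eZ _ _ _ _)
      · refine (bAp hg hc4 (by omega)).trans ?_
        have h1 := ar_iff (Z := Yt (t2 u1 u) 2 TC z) (c := a1 n) (q := co σ (a4 n)) (m := ⟨a2 n, hm⟩) A h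
        rw [t2_zero, t2_one] at h1
        exact h1.symm.trans (car_tr eZ _ _ _ _)
      · refine (bS60 hg hc4 (by omega)).trans ?_
        exact (tick0 hu (a1 n) (a2 n) hm h z TC (co σ (a4 n))).trans (cs_tr eZ _ _ _)
    · rw [if_neg (by omega), hk1]
      interval_cases r
      · refine (bS60 hg hc4 (by omega)).trans ?_
        exact (tick0 hu (a1 n) (a2 n) hm h z TC (co σ (a4 n))).trans (cs_tr eZ _ _ _)
      · refine (bBm hg hc4 (by omega)).trans ?_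
        have h1 := bl_iff (Z := Yt (t2 u1 u) 2 TC z) (c := a1 n) (q := co σ (a4 n)) (m := ⟨a2 n, hm⟩) A h
        rw [t2_zero, t2_one] at h1
        exact h1.symm.trans (cbl_tr eZ _ _ _ _)
      · refine (bV hg hc4 (show 2 * a2 n + 1 < 256 by omega) (by norm_num)).trans ?_
        have h1 := br_iff (Z := Yt (t2 u1 u) 2 TC z) (c := a1 n) (q := co σ (a4 n)) (m := ⟨a2 n, hm⟩) A h
        rw [t2_zero, t2_one] at h1
        exact h1.symm.trans (cbr_tr eZ _ _ _ _)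
      · refine (bAL hg hc4 (by omega)).trans ?_
        show AccL (shD T (Yt (t2 u1 u) 2 TC z) (a1 n) (co σ (a4 n))) (t2 u1 u 0 + (a2 n : ℕ) + 1) ↔ _
        rw [t2_zero, shd_tr eZ]
        exact Iff.rfl
  · have hn12 : Nat.beq (a0 n) 12 = false := by rw [← Bool.not_eq_true, nbeq]; omega
    have hn7 : (Nat.beq (a0 n) 7 || (Nat.beq (a0 n) 11 && Nat.ble 4 (a3 n))) = false := by
      rw [← Bool.not_eq_true, Bool.or_eq_true, Bool.and_eq_true, nbeq, nbeq]; omega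
    have e2 : rAW r (a0 n) (a1 n) (a2 n) (a3 n) (a4 n) = En (a0 n) (a1 n) (tk r (a2 n)) (sr r + a3 n) (a4 n) := by
      unfold rAW
      rw [hn12, hn7]; rfl
    have e3 : (sr r + a3 n) / 2 = sr r / 2 := by omega
    have e4 : (sr r + a3 n) % 2 = a3 n := by omega
    rw [e2, if_neg (by omega)]
    rcases hk with hk | hk
    · rw [if_pos hk, hk]
      refine (bW hg hc4 htk (by omega)).trans ?_
      rw [e3, e4, eW]
    · rw [if_neg (by omega), if_pos hk, hk]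
      refine (bL hg hc4 htk (by omega)).trans ?_
      rw [e3, e4]
      unfold MdW.L
      rw [eW, eW, eW]
      refine if_tr (and_congr ?_ ?_)
      · rw [eT]
        unfold nio
        rw [co_no, if_pos rfl]
      · rw [eT]
        unfold nio
        rw [co_no, if_neg one_ne_zero]
  · rw [if_neg (by omega), if_neg (by omega), if_neg (by omega), if_pos hk]
    have hn12 : Nat.beq (a0 n) 12 = false := by rw [← Bool.not_eq_true, nbeq]; omega
    rcases hk1 with hk1 | hk1 | hk1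
    · have hn7 : (Nat.beq (a0 n) 7 || (Nat.beq (a0 n) 11 && Nat.ble 4 (a3 n))) = false := by
        rw [← Bool.not_eq_true, Bool.or_eq_true, Bool.and_eq_true, nbeq, nbeq, Nat.ble_eq]; omega
      have e2 : rAW r (a0 n) (a1 n) (a2 n) (a3 n) (a4 n) = En 11 (a1 n) (tk r (a2 n)) (sr r + a3 n) (a4 n) := by
        unfold rAW
        rw [hn12, hn7, hk]; rfl
      have e3 : (sr r + a3 n) / 2 = sr r / 2 := by omega
      have e4 : (sr r + a3 n) % 2 = a3 n := by omega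
      rw [e2, if_pos (by omega)]
      refine (bLT hg hc4 htk (by omega)).trans ?_
      rw [e3, e4]
      exact eLT (by omega) _
    · have hn7 : (Nat.beq (a0 n) 7 || (Nat.beq (a0 n) 11 && Nat.ble 4 (a3 n))) = true := by
        rw [Bool.or_eq_true, Bool.and_eq_true, nbeq, nbeq, Nat.ble_eq]; omega
      have e2 : rAW r (a0 n) (a1 n) (a2 n) (a3 n) (a4 n) = En 11 (a1 n) (tk r (a2 n)) (sr r / 2 + 4) (a4 n) := by
        unfold rAW
        rw [hn12, hn7, hk, hk1]; rfl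
      rw [e2, if_neg (by omega), if_pos (by omega)]
      refine (bLU hg hc4 htk hsd).trans ?_
      exact eLU _
    · have hn7 : (Nat.beq (a0 n) 7 || (Nat.beq (a0 n) 11 && Nat.ble 4 (a3 n))) = true := by
        rw [Bool.or_eq_true, Bool.and_eq_true, nbeq, nbeq, Nat.ble_eq]; omega
      have e2 : rAW r (a0 n) (a1 n) (a2 n) (a3 n) (a4 n) = En 11 (a1 n) (tk r (a2 n)) (sr r / 2 + 6) (a4 n) := by
        unfold rAW
        rw [hn12, hn7, hk, hk1]; rfl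
      rw [e2, if_neg (by omega), if_neg (by omega)]
      refine (bLE hg hc4 htk hsd).trans ?_
      unfold MdW.LE
      rw [eLU, eT]
  · rw [if_neg (by omega), if_neg (by omega), if_neg (by omega), if_neg (by omega)]
    have hn12 : Nat.beq (a0 n) 12 = false := by rw [← Bool.not_eq_true, nbeq]; omega
    have hn7 : (Nat.beq (a0 n) 7 || (Nat.beq (a0 n) 11 && Nat.ble 4 (a3 n))) = true := by
      rw [Bool.or_eq_true, nbeq]; exact Or.inl hk
    have e2 : rAW r (a0 n) (a1 n) (a2 n) (a3 n) (a4 n) = En 7 (a1 n) (tk r (a2 n)) (sr r / 2 + 1) (a4 n) := by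
      unfold rAW
      rw [hn12, hn7, hk, hk1]; rfl
    rw [e2]
    refine (bOD hg hc4 htk hsd).trans ?_
    unfold MdW.OD
    rw [eLU, eT]

end

/-! ### the value of a state in a reading -/

theorem lv_two {v : ℕ → Prop} {n l : ℕ} :
    lv v (Nat.add (Nat.mul 2 n) (Nat.mod l 2)) ↔ if l % 2 = 0 then v n else ¬ v n := by
  have e : Nat.add (Nat.mul 2 n) (Nat.mod l 2) = 2 * n + l % 2 := rfl
  rw [e]
  unfold lv
  rw [show (2 * n + l % 2) % 2 = l % 2 by omega, show (2 * n + l % 2) / 2 = n by omega]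

/-- the closed sets of the states -/
def DhW (T : ℂ → Set (Fin 6)) (Z : Cn NW TC → ℂ) {β : Type} (Dx : β → Fin 6 → Set ℝ) :
    Cn NW TC ⊕ β → Fin 6 → Set ℝ := Sum.elim (shD T Z) Dx

section
variable {h : Irr U T} {B : Tb NP NW TB TC} {z : ℂ} {σ : Equiv.Perm (Fin 6)} {u1 : ℝ}
  {s0 s1 : Cn NW TC × Fin 6 → SP} (X : XB U T NP NW TB TC okB ok0B rB z σ u1 s0 s1)

/-- the value of a state literal for a state with bits -/
def slx (s : Cn NW TC × Fin 6 → SP) (A D : GB (Cn NW TC ⊕ X.β)) (b : Set X.H) (l : ℕ) : Prop :=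
  slW σ U T (Zf u1 TC z NW) s (fun c => A (Sum.inl c)) (fun c => D (Sum.inl c))
    (X.xv (fun c => A (Sum.inr c)) (fun c => D (Sum.inr c)) b) l

theorem bAw_inl {Z : Cn NW TC → ℂ} {β : Type} {Dx : β → Fin 6 → Set ℝ} {r : ℕ} {u : ℝ} :
    (fun c => bAw (DhW T Z Dx) r u1 u (Sum.inl c)) = bAw (shD T Z) r u1 u := by
  unfold bAw
  split_ifs <;> rfl

theorem bBw_inl {Z : Cn NW TC → ℂ} {β : Type} {Dx : β → Fin 6 → Set ℝ} {r : ℕ} {u : ℝ} :
    (fun c => bBw (DhW T Z Dx) r u1 u (Sum.inl c)) = bBw (shD T Z) r u1 u := by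
  unfold bBw
  split_ifs <;> rfl

theorem bAw_inr {Z : Cn NW TC → ℂ} {β : Type} {Dx : β → Fin 6 → Set ℝ} {r : ℕ} {u : ℝ} :
    (fun c => bAw (DhW T Z Dx) r u1 u (Sum.inr c)) = bAw Dx r u1 u := by
  unfold bAw
  split_ifs <;> rfl

theorem bBw_inr {Z : Cn NW TC → ℂ} {β : Type} {Dx : β → Fin 6 → Set ℝ} {r : ℕ} {u : ℝ} :
    (fun c => bBw (DhW T Z Dx) r u1 u (Sum.inr c)) = bBw Dx r u1 u := by
  unfold bBw
  split_ifs <;> rfl

variable {X} {u : ℝ} {hu : u ∈ Ioo u1 (u1 + 1)} {L R : Cn NW TC × Fin 6 → SP} {W : WD NW} {J : ℕ → ℕ → ℕ → ℕ}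
  {D : DtW U T NP NW TB TC z σ u1 u s0 s1 L R W J} {Bx : ℕ → ℕ → ℕ → ℕ → Prop} {b : Set X.H}

theorem svW_congr {Z : Cn NW TC → ℂ} {s : Cn NW TC × Fin 6 → SP} {A D : GB (Cn NW TC)} {xb xb' : ℕ → Prop} {n : ℕ}
    (hn : okW okB NW TC n = true) (hx : okB n = true → (xb n ↔ xb' n)) :
    svW σ U T Z s A D xb n ↔ svW σ U T Z s A D xb' n := by
  rcases okW_spec hn with ⟨h14, h1⟩ | ⟨hne, -⟩
  · unfold svW
    rw [if_pos h14, if_pos h14]
    exact hx h1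
  · unfold svW
    rw [if_neg hne, if_neg hne]

/-- **the readings of a state literal** -/
theorem lv_rdW (hrB : ∀ r n, okB n = true → a0 (rB r n) = 14) (hP : X.PX u L R b W J Bx) {r l : ℕ} (hr : r < 4)
    (hl : okW okB NW TC (Nat.div l 2) = true) : lv (mkW h B hu D Bx).bv (rdW rB r l) ↔
    slx X (stvW r s0 L R s1) (bAw (DhW T (Zf u1 TC z NW) X.Dx) r u1 u) (bBw (DhW T (Zf u1 TC z NW) X.Dx) r u1 u)
      (hsW U T z u1 X.Q s0 R b r) l := by
  refine lv_two.trans ?_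
  unfold slx slW
  rw [bAw_inl, bBw_inl, bAw_inr, bBw_inr]
  have key : (mkW h B hu D Bx).bv (rnW rB r (l / 2)) ↔ svW σ U T (Zf u1 TC z NW) (stvW r s0 L R s1)
      (bAw (shD T (Zf u1 TC z NW)) r u1 u) (bBw (shD T (Zf u1 TC z NW)) r u1 u)
      (X.xv (bAw X.Dx r u1 u) (bBw X.Dx r u1 u) (hsW U T z u1 X.Q s0 R b r)) (l / 2) :=
    (bv_rn hrB hr hl).trans (svW_congr hl fun h1 => X.rd hu hP _ h1 r hr)
  rw [show Nat.div l 2 = l / 2 from rfl, key]

theorem ho_rcW (hrB : ∀ r n, okB n = true → a0 (rB r n) = 14) (hP : X.PX u L R b W J Bx) {r : ℕ} {C : List ℕ}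
    (hr : r < 4) (hC : ∀ l ∈ C, okW okB NW TC (Nat.div l 2) = true) : Ho (mkW h B hu D Bx).bv (rcW rB r C) ↔
    ∃ l ∈ C, slx X (stvW r s0 L R s1) (bAw (DhW T (Zf u1 TC z NW) X.Dx) r u1 u)
      (bBw (DhW T (Zf u1 TC z NW) X.Dx) r u1 u) (hsW U T z u1 X.Q s0 R b r) l := by
  constructor
  · rintro ⟨l', h1, h2⟩
    obtain ⟨l, h3, rfl⟩ := List.mem_map.1 h1
    exact ⟨l, h3, (lv_rdW hrB hP hr (hC l h3)).1 h2⟩
  · rintro ⟨l, h1, h2⟩
    exact ⟨rdW rB r l, List.mem_map.2 ⟨l, h1, rfl⟩, (lv_rdW hrB hP hr (hC l h1)).2 h2⟩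

end

/-! ### certified patterns -/

/-- the readings start, before and after are equal -/
def Q0W (TC : ℕ) (okB : ℕ → Bool) (rB : ℕ → ℕ → ℕ) (M : MdW 2 NP NW (nbf 2 TB)) : Prop :=
  ∀ n, okW okB NW TC n = true → ∀ r < 3, (M.bv (rnW rB r n) ↔ M.bv (rnW rB 0 n))

/-- the readings before, after and end are equal -/
def Q1W (TC : ℕ) (okB : ℕ → Bool) (rB : ℕ → ℕ → ℕ) (M : MdW 2 NP NW (nbf 2 TB)) : Prop :=
  ∀ n, okW okB NW TC n = true → ∀ r < 4, 0 < r → (M.bv (rnW rB r n) ↔ M.bv (rnW rB 3 n))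

/-- **A certified pattern**: `Ex` a law of the models, `P` the pattern, `Inv` the invariant (clauses of states) -/
structure PatW (TC : ℕ) (okB ok0B : ℕ → Bool) (rB : ℕ → ℕ → ℕ) (Ex : MdW 2 NP NW (nbf 2 TB) → Prop) (P : List ℕ)
    (Inv : List (List ℕ)) : Prop where
  hrB : ∀ r n, okB n = true → a0 (rB r n) = 14
  p0 : ∀ l ∈ P, ok0W ok0B NW TC (Nat.div l 2) = true
  i0 : ∀ C ∈ Inv, ∀ l ∈ C, okW okB NW TC (Nat.div l 2) = true
  init : ∀ M : MdW 2 NP NW (nbf 2 TB), Ex M → (∀ l ∈ P, lv M.bv l) → Q0W TC okB rB M →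
    ∀ C ∈ Inv, Ho M.bv (rcW rB 0 C)
  step : ∀ M : MdW 2 NP NW (nbf 2 TB), Ex M → (∀ l ∈ P, lv M.bv l) → (∀ C ∈ Inv, Ho M.bv (rcW rB 1 C)) →
    ∀ C ∈ Inv, Ho M.bv (rcW rB 2 C)
  fin : ∀ M : MdW 2 NP NW (nbf 2 TB), Ex M → (∀ l ∈ P, lv M.bv l) → Q1W TC okB rB M →
    (∀ C ∈ Inv, Ho M.bv (rcW rB 3 C)) → False

section
variable {h : Irr U T} {B : Tb NP NW TB TC} {z : ℂ} {σ : Equiv.Perm (Fin 6)} {u1 : ℝ}
  {s0 s1 : Cn NW TC × Fin 6 → SP} {X : XB U T NP NW TB TC okB ok0B rB z σ u1 s0 s1}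

/-- the literals of class 0 have the same value in all legal models -/
theorem lv_transferW {M M' : MdW 2 NP NW (nbf 2 TB)} (hM : LegW h B X M) (hM' : LegW h B X M') {l : ℕ}
    (hl : ok0W ok0B NW TC (Nat.div l 2) = true) : lv M.bv l ↔ lv M'.bv l := by
  obtain ⟨u, hu, L, R, b, W, J, Bx, D, -, hP, rfl⟩ := hM
  obtain ⟨u', hu', L', R', b', W', J', Bx', D', -, hP', rfl⟩ := hM'
  have h1 : (mkW h B hu D Bx).bv (l / 2) ↔ (mkW h B hu' D' Bx').bv (l / 2) := bv_transfer (X.c0 hP hP') hl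
  unfold lv
  rw [h1]

theorem mem_evs_of_rst {u : ℝ} (hu : u ∈ Ioo u1 (u1 + 1)) {R : Cn NW TC × Fin 6 → SP}
    (hR : R ∈ RSt DO (IPs U T (nX (Zf u1 TC z NW)) nO) u) {H : Type} {Q : H → (Cn NW TC × Fin 6 → SP) → Prop} {j : H}
    (hj : Q j R) : j ∈ evs U T z u1 Q s0 := by
  have hR : ∃ᶠ v in 𝓝[>] u ⊓ DO, IPs U T (nX (Zf u1 TC z NW)) nO v R := hR
  have h3 : ∀ᶠ v in 𝓝[>] u ⊓ DO, v ∈ Ioo u (u1 + 1) := 
    (show ∀ᶠ v in 𝓝[>] u, v ∈ Ioo u (u1 + 1) from Ioo_mem_nhdsGT hu.2).filter_mono inf_le_left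
  obtain ⟨v, h1, h2⟩ := (hR.and_eventually h3).exists
  exact Or.inr ⟨v, ⟨hu.1.trans h2.1, h2.2⟩, R, h1, hj⟩

theorem mem_evs_of_lst {u : ℝ} (hu : u ∈ Ioo u1 (u1 + 1)) {L : Cn NW TC × Fin 6 → SP}
    (hL : L ∈ LSt DO (IPs U T (nX (Zf u1 TC z NW)) nO) u) {H : Type} {Q : H → (Cn NW TC × Fin 6 → SP) → Prop} {j : H}
    (hj : Q j L) : j ∈ evs U T z u1 Q s0 := by
  have hL : ∃ᶠ v in 𝓝[<] u ⊓ DO, IPs U T (nX (Zf u1 TC z NW)) nO v L := hL
  have h3 : ∀ᶠ v in 𝓝[<] u ⊓ DO, v ∈ Ioo u1 u := 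
    (show ∀ᶠ v in 𝓝[<] u, v ∈ Ioo u1 u from Ioo_mem_nhdsLT hu.1).filter_mono inf_le_left
  obtain ⟨v, h1, h2⟩ := (hL.and_eventually h3).exists
  exact Or.inr ⟨v, ⟨h2.1, h2.2.trans hu.2⟩, L, h1, hj⟩

/-- **A certified pattern is not realised.** -/
theorem pdrW {Ex : MdW 2 NP NW (nbf 2 TB) → Prop} {P : List ℕ} {Inv : List (List ℕ)}
    (hE : ∀ M, LegW h B X M → Ex M) (H : PatW TC okB ok0B rB Ex P Inv) : ¬ RlW h B X P := by
  rintro ⟨M0, hM0, hP0⟩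
  have hP : ∀ M, LegW h B X M → ∀ l ∈ P, lv M.bv l := fun M hM l hl =>
    (lv_transferW hM0 hM (H.p0 l hl)).1 (hP0 l hl)
  obtain ⟨u0, hu0, L0, R0, b0, W0, J0, X0, D0, -, -, -⟩ := hM0
  have k0 := D0.h0
  have k1 := D0.h1
  have := X.finβ
  have := X.finH
  have hcl : ∀ (j : Cn NW TC ⊕ X.β) (q : Fin 6), IsClosed (DhW T (Zf u1 TC z NW) X.Dx j q) := by
    rintro (c | i) q
    · exact shD_closed T _ c q
    · exact X.hD i q
  obtain ⟨⟨ua, hua, ka1, ka2, ka3, ka4, ka5, ka6⟩, ⟨ub, hub, kb1, kb2, kb3, kb4, kb5, kb6⟩, -⟩ :=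
    wgen_states_all (D := DhW T (Zf u1 TC z NW) X.Dx) h hcl k0 k1
  have hs0e : {j | X.Q j s0} ⊆ evs U T z u1 X.Q s0 := fun j hj => Or.inl hj
  have hev := H766.wgen_hist (D := DhW T (Zf u1 TC z NW) X.Dx) h hcl k0 k1 X.Q
    (fun b s A D => ({j | X.Q j s0} ⊆ b ∧ b ⊆ evs U T z u1 X.Q s0) ∧ ∀ C ∈ Inv, ∃ l ∈ C, slx X s A D b l) ?_ ?_
  · -- end
    obtain ⟨-, hV1⟩ := hev
    have hs1e : {j | X.Q j s1} ⊆ evs U T z u1 X.Q s0 := fun j hj => mem_evs_of_lst hub kb1 hj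
    obtain ⟨W, J, Bx, D, hPX⟩ := X.ex (b := evs U T z u1 X.Q s0) hub kb1 kb2 hs0e hs1e le_rfl
    have hM : LegW h B X (mkW h B hub D Bx) := ⟨ub, hub, s1, s1, _, W, J, Bx, D, ⟨hs0e, hs1e, le_rfl⟩, hPX, rfl⟩
    have hun : evs U T z u1 X.Q s0 ∪ {j | X.Q j s1} = evs U T z u1 X.Q s0 := union_eq_left.2 hs1e
    refine H.fin _ (hE _ hM) (hP _ hM) (fun n hn r hr hr0 => ?_) (fun C hC => ?_)
    · have hl : okW okB NW TC (Nat.div (2 * n) 2) = true := by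
        rw [show Nat.div (2 * n) 2 = n from Nat.mul_div_cancel_left n (by norm_num)]; exact hn
      have e1 := lv_rdW (D := D) (hu := hub) (h := h) (B := B) H.hrB hPX hr hl
      have e2 := lv_rdW (D := D) (hu := hub) (h := h) (B := B) H.hrB hPX (show 3 < 4 by norm_num) hl
      have e3 : ∀ r', lv (mkW h B hub D Bx).bv (rdW rB r' (2 * n)) ↔ (mkW h B hub D Bx).bv (rnW rB r' n) := by
        intro r'
        unfold rdW
        rw [lv_two, if_pos (by omega), show Nat.div (2 * n) 2 = n from Nat.mul_div_cancel_left n (by norm_num)]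
      rw [← e3, ← e3, e1, e2]
      interval_cases r
      · unfold stvW bAw bBw hsW
        norm_num
        rw [kb3, kb4]
      · unfold stvW bAw bBw hsW
        norm_num
        rw [kb5, kb6, hun]
      · exact Iff.rfl
    · refine (ho_rcW H.hrB hPX (by norm_num) (H.i0 C hC)).2 ?_
      exact hV1 C hC
  · -- start
    refine ⟨⟨le_rfl, hs0e⟩, ?_⟩
    obtain ⟨W, J, Bx, D, hPX⟩ := X.ex (b := {j | X.Q j s0}) hua ka1 ka2 le_rfl le_rfl hs0e
    have hM : LegW h B X (mkW h B hua D Bx) := ⟨ua, hua, s0, s0, _, W, J, Bx, D, ⟨le_rfl, le_rfl, hs0e⟩, hPX, rfl⟩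
    have h1 := H.init _ (hE _ hM) (hP _ hM) (fun n hn r hr => ?_)
    · intro C hC
      exact (ho_rcW H.hrB hPX (by norm_num) (H.i0 C hC)).1 (h1 C hC)
    · have hl : okW okB NW TC (Nat.div (2 * n) 2) = true := by
        rw [show Nat.div (2 * n) 2 = n from Nat.mul_div_cancel_left n (by norm_num)]; exact hn
      have e1 := lv_rdW (D := D) (hu := hua) (h := h) (B := B) H.hrB hPX (show r < 4 by omega) hl
      have e2 := lv_rdW (D := D) (hu := hua) (h := h) (B := B) H.hrB hPX (show 0 < 4 by norm_num) hl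
      have e3 : ∀ r', lv (mkW h B hua D Bx).bv (rdW rB r' (2 * n)) ↔ (mkW h B hua D Bx).bv (rnW rB r' n) := by
        intro r'
        unfold rdW
        rw [lv_two, if_pos (by omega), show Nat.div (2 * n) 2 = n from Nat.mul_div_cancel_left n (by norm_num)]
      rw [← e3, ← e3, e1, e2]
      interval_cases r
      · exact Iff.rfl
      · unfold stvW bAw bBw hsW
        norm_num
        rw [ka3, ka4]
      · unfold stvW bAw bBw hsW
        norm_num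
        rw [ka5, ka6]
  · -- step
    rintro u hu b L hL hQL ⟨⟨hb1, hb2⟩, hV1⟩ R hR
    refine ⟨⟨hb1.trans subset_union_left, union_subset hb2 fun j hj => mem_evs_of_rst hu hR hj⟩, fun C hC => ?_⟩
    obtain ⟨W, J, Bx, D, hPX⟩ := X.ex (b := b) hu hL hR hb1 hQL hb2
    have hM : LegW h B X (mkW h B hu D Bx) := ⟨u, hu, L, R, _, W, J, Bx, D, ⟨hb1, hQL, hb2⟩, hPX, rfl⟩
    have h1 := H.step _ (hE _ hM) (hP _ hM) (fun C hC => ?_) C hC
    · exact (ho_rcW H.hrB hPX (by norm_num) (H.i0 C hC)).1 h1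
    · refine (ho_rcW H.hrB hPX (by norm_num) (H.i0 C hC)).2 ?_
      exact hV1 C hC

end

/-! ### queries -/

/-- no model with the law `Ex` satisfies the clauses `e` -/
def QyW (NP NW TB : ℕ) (Ex : MdW 2 NP NW (nbf 2 TB) → Prop) (e : List (List ℕ)) : Prop :=
  ∀ M : MdW 2 NP NW (nbf 2 TB), Ex M → (∀ c ∈ e, Ho M.bv c) → False

theorem lv_nglW {v : ℕ → Prop} {l : ℕ} : lv v (ngl l) ↔ ¬ lv v l := by
  unfold ngl
  rcases Nat.mod_two_eq_zero_or_one l with h | h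
  · have h1 : Nat.beq (Nat.mod l 2) 0 = true := nbeq.2 h
    rw [h1, cond_true]
    unfold lv
    rw [if_pos h, Nat.succ_eq_add_one, if_neg (show ¬ (l + 1) % 2 = 0 by omega), show (l + 1) / 2 = l / 2 by omega]
  · have h1 : Nat.beq (Nat.mod l 2) 0 = false := by
      rw [← Bool.not_eq_true, nbeq]
      show ¬ l % 2 = 0
      omega
    rw [h1, cond_false]
    unfold lv
    rw [Nat.sub_eq, if_neg (show ¬ l % 2 = 0 by omega), if_pos (show (l - 1) % 2 = 0 by omega),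
      show (l - 1) / 2 = l / 2 by omega, not_not]

theorem ho_unW {v : ℕ → Prop} {P : List ℕ} (h : ∀ l ∈ P, lv v l) : ∀ c ∈ un P, Ho v c := by
  intro c hc
  obtain ⟨l, h1, rfl⟩ := List.mem_map.1 hc
  exact ⟨l, List.mem_singleton_self l, h l h1⟩

variable {Ex : MdW 2 NP NW (nbf 2 TB) → Prop}

theorem ho_of_qW {M : MdW 2 NP NW (nbf 2 TB)} {e : List (List ℕ)} {C : List ℕ} (h : QyW NP NW TB Ex (e ++ ngs C))
    (hM : Ex M) (he : ∀ c ∈ e, Ho M.bv c) : Ho M.bv C := by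
  by_contra hcon
  refine h M hM fun c hc => ?_
  rcases List.mem_append.1 hc with h1 | h1
  · exact he c h1
  · obtain ⟨l, h2, rfl⟩ := List.mem_map.1 h1
    exact ⟨_, List.mem_singleton_self _, lv_nglW.2 fun h3 => hcon ⟨l, h2, h3⟩⟩

/-- an equality of two readings, code `r + 4 s + 16 n` -/
def stcW (rB : ℕ → ℕ → ℕ) (v : ℕ) : List ℕ :=
  [ng (rnW rB (Nat.mod v 4) (Nat.div v 16)), ps (rnW rB (Nat.mod (Nat.div v 4) 4) (Nat.div v 16))]

/-- admissible equalities at the start -/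
def ok_sW (okB : ℕ → Bool) (NW TC v : ℕ) : Bool :=
  okW okB NW TC (Nat.div v 16) && Nat.ble (Nat.mod v 4) 2 && Nat.ble (Nat.mod (Nat.div v 4) 4) 2

/-- admissible equalities at the end -/
def ok_eW (okB : ℕ → Bool) (NW TC v : ℕ) : Bool :=
  okW okB NW TC (Nat.div v 16) && Nat.ble 1 (Nat.mod v 4) && Nat.ble 1 (Nat.mod (Nat.div v 4) 4)

theorem ho_stcW {v : ℕ → Prop} {a b : ℕ} (h : v a → v b) : Ho v [ng a, ps b] := by
  by_cases h1 : v a
  · exact ⟨_, List.mem_cons_of_mem _ List.mem_cons_self, lv_ps.2 (h h1)⟩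
  · exact ⟨_, List.mem_cons_self, lv_ng.2 h1⟩

theorem ho_sW {M : MdW 2 NP NW (nbf 2 TB)} {v : ℕ} (h : Q0W TC okB rB M) (hv : ok_sW okB NW TC v = true) :
    Ho M.bv (stcW rB v) := by
  unfold ok_sW at hv
  rw [Bool.and_eq_true, Bool.and_eq_true, Nat.ble_eq, Nat.ble_eq] at hv
  obtain ⟨⟨h1, h2⟩, h3⟩ := hv
  exact ho_stcW fun h4 => (h _ h1 _ (Nat.lt_succ_of_le h3)).2 ((h _ h1 _ (Nat.lt_succ_of_le h2)).1 h4)

theorem ho_eW {M : MdW 2 NP NW (nbf 2 TB)} {v : ℕ} (h : Q1W TC okB rB M) (hv : ok_eW okB NW TC v = true) :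
    Ho M.bv (stcW rB v) := by
  unfold ok_eW at hv
  rw [Bool.and_eq_true, Bool.and_eq_true, Nat.ble_eq, Nat.ble_eq] at hv
  obtain ⟨⟨h1, h2⟩, h3⟩ := hv
  exact ho_stcW fun h4 => (h _ h1 _ (Nat.mod_lt _ (by norm_num)) h3).2
    ((h _ h1 _ (Nat.mod_lt _ (by norm_num)) h2).1 h4)

/-- **A certified pattern from queries**: `vs` and `ve` the used equalities at the start and at the end; one query for
every clause of the invariant at the start, one for every clause for the step, one for the end. -/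
theorem patW_of_q {P : List ℕ} {Inv : List (List ℕ)} {vs ve : List ℕ} (hrB : ∀ r n, okB n = true → a0 (rB r n) = 14)
    (hP : alL (fun l => ok0W ok0B NW TC (Nat.div l 2)) P = true)
    (hI : alLL (fun C => alL (fun l => okW okB NW TC (Nat.div l 2)) C) Inv = true)
    (hs : alL (ok_sW okB NW TC) vs = true) (he : alL (ok_eW okB NW TC) ve = true)
    (q0 : ∀ C ∈ Inv, QyW NP NW TB Ex (un P ++ vs.map (stcW rB) ++ ngs (rcW rB 0 C)))
    (q1 : ∀ C ∈ Inv, QyW NP NW TB Ex (un P ++ Inv.map (rcW rB 1) ++ ngs (rcW rB 2 C)))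
    (q2 : QyW NP NW TB Ex (un P ++ ve.map (stcW rB) ++ Inv.map (rcW rB 3))) : PatW TC okB ok0B rB Ex P Inv where
  hrB := hrB
  p0 := alL_spec hP
  i0 := fun C hC => alL_spec (alLL_spec hI C hC)
  init := fun M hE hl h0 C hC => ho_of_qW (q0 C hC) hE fun c hc => by
    rcases List.mem_append.1 hc with hc | hc
    · exact ho_unW hl c hc
    · obtain ⟨v, hv, rfl⟩ := List.mem_map.1 hc
      exact ho_sW h0 (alL_spec hs v hv)
  step := fun M hE hl hi C hC => ho_of_qW (q1 C hC) hE fun c hc => by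
    rcases List.mem_append.1 hc with hc | hc
    · exact ho_unW hl c hc
    · obtain ⟨C', hC', rfl⟩ := List.mem_map.1 hc
      exact hi C' hC'
  fin := fun M hE hl h1 hi => q2 M hE fun c hc => by
    rcases List.mem_append.1 hc with hc | hc
    · rcases List.mem_append.1 hc with hc | hc
      · exact ho_unW hl c hc
      · obtain ⟨v, hv, rfl⟩ := List.mem_map.1 hc
        exact ho_eW h1 (alL_spec he v hv)
    · obtain ⟨C', hC', rfl⟩ := List.mem_map.1 hc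
      exact hi C' hC'

/-! ### certificates -/

/-- a law given by external clauses -/
def exL (NP NW TB : ℕ) (E : List (List ℕ)) (M : MdW 2 NP NW (nbf 2 TB)) : Prop := ∀ c ∈ E, Ho M.bv c

theorem qyW_append {E e : List (List ℕ)} (h : QyW NP NW TB (fun _ => True) (E ++ e)) :
    QyW NP NW TB (exL NP NW TB E) e := fun M hM he => h M trivial fun c hc => by
  rcases List.mem_append.1 hc with h1 | h1
  · exact hM c h1
  · exact he c h1

theorem qyW_mono {Ex' : MdW 2 NP NW (nbf 2 TB) → Prop} {e e' : List (List ℕ)} (hE : ∀ M, Ex M → Ex' M)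
    (he : ∀ c ∈ e', c ∈ e) (h : QyW NP NW TB Ex' e') : QyW NP NW TB Ex e := fun M hM h1 =>
  h M (hE M hM) fun c hc => h1 c (he c hc)

/-- no defined atoms -/
def nodf (e : List (List ℕ)) : Bool :=
  alLL (fun c => alL (fun l => Nat.ble (Nat.mod (Nat.div l 2) 16) 14) c) e

theorem ho_vx {v : ℕ → Prop} {t : ℕ → List ℕ} {e : List (List ℕ)} (he : nodf e = true) {c : List ℕ} (hc : c ∈ e)
    (h : Ho v c) : Ho (vx v t) c := by
  obtain ⟨l, h1, h2⟩ := h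
  refine ⟨l, h1, ?_⟩
  have h3 := alL_spec (alLL_spec he c hc) l h1
  rw [Nat.ble_eq] at h3
  have h3 : l / 2 % 16 ≤ 14 := h3
  have e : vx v t (l / 2) ↔ v (l / 2) := by
    unfold vx
    rw [if_neg (by omega)]
  unfold lv at h2 ⊢
  rw [e]
  exact h2

/-- **queries from certificates** (`H240.W.chkG`), definitions `t` -/
theorem qyW_of_chk {e : List (List ℕ)} {t : ℕ → List ℕ} {Bt HB dA d : ℕ} {A C D H : List ℕ} (he : nodf e = true)
    (h : chkG (genW 2 NP NW TB e t) Bt HB dA d A C D H = true) : QyW NP NW TB Ex e := fun _ _ h1 =>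
  chkW_sound h fun c hc => ho_vx he hc (h1 c hc)

end Vale.Agent.P032.H635.W
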