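import Vale.Agent.P032.H993.MkM
import Vale.Agent.P032.H240.W.Gen3
import Vale.Agent.P032.H515.GenS
import Vale.Agent.P032.H766.HistW
import Vale.Agent.P032.H357.Run

/-!
# P032: the wild legs

Frame `Irr U T`.  Base point `z`, class 0 = the directions `u1 + m`, moving class = the directions `u + m`,
`u ∈ (u1, u1 + 1)`, points `Yt (t2 u1 u) 2 TC z x` (table `TC`), word points `x < NW`, fixed centres `Cn NW TC` = word
points of class 0, at the points `Zf u1 TC z NW`.  States of the fixed centres: set letters `SP` (inner set, outer set).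

* `stW` : the set letter of a fixed centre at the tick `t`, side `sd`, from the four states `s0` (right at `u1`), `s1`
  (left at `u1 + 1`), `L`, `R` (left and right at `u`),
* `DtW` : words `W`, joint colouring `J` of all points which extend the four states; `exists_dt`,
* `mkW` : the model (`H993.MkW.mkMdW`) of the data, with the bits `X`,
* `XB` : further state bits (closed sets of directions `Dx`, history events `Q`) and the bits `X` of the models,
* `LegW` : **the legal models**, `RlW` : the class 0 literals `P` are true in a legal model.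
-/

open Set Filter Topology Metric

noncomputable section

namespace Vale.Agent.P032.H635.W

open Vale.Agent.P032.Six Vale.Agent.P032.H892 Vale.Agent.P032.H913 Vale.Agent.P032.S5.H767 Vale.Agent.P032.H61
  Vale.Agent.P032.H357 Vale.Agent.P032.H357.MK Vale.Agent.P032.H556 Vale.Agent.P032.H515 Vale.Agent.P032.H993.MkW
open Vale.Agent.P032.H240.W (MdW lv Ho)
open Vale.Agent.P032.H820.K (nbf En a0 a1 a2 a3 a4 ps ng)

/-- set letters: inner set and outer set -/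
abbrev SP : Type := Set (Fin 6) × Set (Fin 6)

/-- the component -/
def cm (io : ℕ) (p : SP) : Set (Fin 6) := if io = 0 then p.1 else p.2

/-- the set letter of the centre `c` at the tick `t`, side `sd` -/
def stW {C : Type*} (s0 s1 L R : C × Fin 6 → SP) (c : C) (t sd : ℕ) : SP :=
  if t % 2 = 0 then (if sd = 1 then s0 (c, f6 (t / 2)) else s1 (c, f6 (t / 2 + 5)))
    else (if sd = 1 then R (c, f6 (t / 2)) else L (c, f6 (t / 2)))

/-- words of all points -/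
abbrev WD (NW : ℕ) : Type := ℕ → Fin NW → ℕ → ℕ → ℕ → Set (Fin 6)

/-- the data of a leg at the time `u` -/
structure DtW (U : Fin 6 → Set ℂ) (T : ℂ → Set (Fin 6)) (NP NW TB TC : ℕ) (z : ℂ) (σ : Equiv.Perm (Fin 6))
    (u1 u : ℝ) (s0 s1 L R : Cn NW TC × Fin 6 → SP) (W : WD NW) (J : ℕ → ℕ → ℕ → ℕ) : Prop where
  h0 : s0 ∈ RSt DO (IPs U T (nX (Zf u1 TC z NW)) nO) u1
  h1 : s1 ∈ LSt DO (IPs U T (nX (Zf u1 TC z NW)) nO) (u1 + 1)
  hL : L ∈ LSt DO (IPs U T (nX (Zf u1 TC z NW)) nO) u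
  hR : R ∈ RSt DO (IPs U T (nX (Zf u1 TC z NW)) nO) u
  D : ∀ r, Wp U T 2 (t2 u1 u) (fun j : Fin NW => Yt (t2 u1 u) 2 TC z j.val) (W r)
  hJ : JC U T 2 (t2 u1 u) σ NP (nbf 2 TB) (Yt (t2 u1 u) 2 TC z) J
  hW : ∀ (c : Cn NW TC) (t sd io : ℕ), sd < 2 → io < 2 → W (t % 2) (fc c) t sd io = cm io (stW s0 s1 L R c t sd)

section
variable {U : Fin 6 → Set ℂ} {T : ℂ → Set (Fin 6)} {NP NW TB TC : ℕ}

/-- **the model of the data** -/
def mkW (h : Irr U T) (B : Tb NP NW TB TC) {z : ℂ} {σ : Equiv.Perm (Fin 6)} {u1 u : ℝ} (hu : u ∈ Ioo u1 (u1 + 1))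
    {s0 s1 L R : Cn NW TC × Fin 6 → SP} {W : WD NW} {J : ℕ → ℕ → ℕ → ℕ}
    (D : DtW U T NP NW TB TC z σ u1 u s0 s1 L R W J) (X : ℕ → ℕ → ℕ → ℕ → Prop) : MdW 2 NP NW (nbf 2 TB) :=
  mkMdW h (tick_t2 hu) σ (by norm_num) B.hNP B.hNW (Yt (t2 u1 u) 2 TC z) (hY_of_tchk (tick_t2 hu) z B.ht)
    (w := fun r => pw U T (fun j : Fin NW => Yt (t2 u1 u) 2 TC z j.val) (W r)) (fun r => sw_pw (D.D r) h) D.hJ X

/-- **Existence of the data.** -/
theorem exists_dt (h : Irr U T) (B : Tb NP NW TB TC) {z : ℂ} (σ : Equiv.Perm (Fin 6)) {u1 u : ℝ}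
    (hu : u ∈ Ioo u1 (u1 + 1)) {s0 s1 L R : Cn NW TC × Fin 6 → SP}
    (h0 : s0 ∈ RSt DO (IPs U T (nX (Zf u1 TC z NW)) nO) u1)
    (h1 : s1 ∈ LSt DO (IPs U T (nX (Zf u1 TC z NW)) nO) (u1 + 1))
    (hL : L ∈ LSt DO (IPs U T (nX (Zf u1 TC z NW)) nO) u) (hR : R ∈ RSt DO (IPs U T (nX (Zf u1 TC z NW)) nO) u) :
    ∃ W J, DtW U T NP NW TB TC z σ u1 u s0 s1 L R W J := by
  let e : Fin NW → Option (Cn NW TC) := fun j =>
    if h : fx0 TC j.val = true then some ⟨j.val, j.isLt, h⟩ else none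
  have he : ∀ j c, e j = some c → Yw u1 u TC z NW j = Zf u1 TC z NW c := by
    intro j c hj
    have hj : (if h : fx0 TC j.val = true then some (⟨j.val, j.isLt, h⟩ : Cn NW TC) else none) = some c := hj
    split_ifs at hj with h1
    have h2 : (⟨j.val, j.isLt, h1⟩ : Cn NW TC) = c := Option.some.inj hj
    rw [← h2]
    exact yw_fc ⟨j.val, j.isLt, h1⟩
  have hfc : ∀ c, e (fc c) = some c := by
    intro c
    show (if h : fx0 TC c.val = true then some (⟨c.val, c.2.1, h⟩ : Cn NW TC) else none) = some c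
    rw [dif_pos c.2.2]
    rfl
  obtain ⟨W, D, k⟩ := exists_wp_all h he hu h0 h1 hL hR
  obtain ⟨J, hJ⟩ := exists_J h (tick_t2 hu) σ (hY_of_tchk (NP := NP) (TB := TB) (TC := TC) (tick_t2 hu) z B.ht)
  refine ⟨W, J, h0, h1, hL, hR, D, hJ, fun c t sd io hsd hio => ?_⟩
  obtain ⟨⟨k1, k2⟩, ⟨k3, k4⟩, ⟨k5, k6⟩, k7, k8⟩ := k (fc c) c (hfc c) (t / 2)
  have hsd' : sd = 0 ∨ sd = 1 := by omega
  have hio' : io = 0 ∨ io = 1 := by omega
  rcases Nat.mod_two_eq_zero_or_one t with ht | ht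
  · have e1 : 2 * (t / 2) = t := by omega
    rw [e1] at k1 k2 k3 k4
    rcases hsd' with rfl | rfl <;> rcases hio' with rfl | rfl
    · simpa [cm, stW, ht] using k3
    · simpa [cm, stW, ht] using k4
    · simpa [cm, stW, ht] using k1
    · simpa [cm, stW, ht] using k2
  · have e1 : 2 * (t / 2) + 1 = t := by omega
    rw [e1] at k5 k6 k7 k8
    rcases hsd' with rfl | rfl <;> rcases hio' with rfl | rfl
    · simpa [cm, stW, ht] using k7
    · simpa [cm, stW, ht] using k8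
    · simpa [cm, stW, ht] using k5
    · simpa [cm, stW, ht] using k6

/-! ### further bits -/

/-- the bits `A` in the reading `r` (0 start, 1 before, 2 after, 3 end) -/
def bAw {B : Type} (D : B → Fin 6 → Set ℝ) (r : ℕ) (u1 u : ℝ) : GB B :=
  if r = 0 then cR D u1 else if r = 1 then cAl D u1 u else if r = 2 then cAr D u1 u else cS D u1

/-- the bits `B` in the reading `r` -/
def bBw {B : Type} (D : B → Fin 6 → Set ℝ) (r : ℕ) (u1 u : ℝ) : GB B :=
  if r = 0 then cS D u1 else if r = 1 then cBl D u1 u else if r = 2 then cBr D u1 u else cL D u1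

/-- all events of the leg -/
def evs (U : Fin 6 → Set ℂ) (T : ℂ → Set (Fin 6)) {NW TC : ℕ} (z : ℂ) (u1 : ℝ) {H : Type}
    (Q : H → (Cn NW TC × Fin 6 → SP) → Prop) (s0 : Cn NW TC × Fin 6 → SP) : Set H :=
  {j | Q j s0} ∪ {j | ∃ v ∈ Ioo u1 (u1 + 1), ∃ s, IPs U T (nX (Zf u1 TC z NW)) nO v s ∧ Q j s}

/-- the history in the reading `r` -/
def hsW (U : Fin 6 → Set ℂ) (T : ℂ → Set (Fin 6)) {NW TC : ℕ} (z : ℂ) (u1 : ℝ) {H : Type}
    (Q : H → (Cn NW TC × Fin 6 → SP) → Prop) (s0 R : Cn NW TC × Fin 6 → SP) (β : Set H) (r : ℕ) : Set H :=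
  if r = 0 then {j | Q j s0} else if r = 1 then β else if r = 2 then β ∪ {j | Q j R} else evs U T z u1 Q s0

/-- relations between the data and the bits: time, left state, right state, history, words, joint colouring, bits -/
abbrev RelX (NW TC : ℕ) (H : Type) : Type := ℝ → (Cn NW TC × Fin 6 → SP) → (Cn NW TC × Fin 6 → SP) → Set H →
  WD NW → (ℕ → ℕ → ℕ → ℕ) → (ℕ → ℕ → ℕ → ℕ → Prop) → Prop

/-- **Further bits of the states and the bits `X` of the models.**  State atoms of the kind 14: `okB`, their readings `rB`;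
bits of class 0: `ok0B`. -/
structure XB (U : Fin 6 → Set ℂ) (T : ℂ → Set (Fin 6)) (NP NW TB TC : ℕ) (okB ok0B : ℕ → Bool) (rB : ℕ → ℕ → ℕ)
    (z : ℂ) (σ : Equiv.Perm (Fin 6)) (u1 : ℝ) (s0 s1 : Cn NW TC × Fin 6 → SP) where
  /-- names of the closed sets -/
  β : Type
  finβ : Finite β
  /-- closed sets of directions -/
  Dx : β → Fin 6 → Set ℝ
  hD : ∀ j q, IsClosed (Dx j q)
  /-- names of the events -/
  H : Type
  finH : Finite H
  /-- the events -/
  Q : H → (Cn NW TC × Fin 6 → SP) → Prop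
  /-- the relation of the data and the bits of the model -/
  PX : RelX NW TC H
  /-- the value of a state atom -/
  xv : GB β → GB β → Set H → ℕ → Prop
  rd : ∀ {u L R b W J X}, u ∈ Ioo u1 (u1 + 1) → PX u L R b W J X → ∀ n, okB n = true → ∀ r < 4,
    (X (a1 (rB r n)) (a2 (rB r n)) (a3 (rB r n)) (a4 (rB r n)) ↔
      xv (bAw Dx r u1 u) (bBw Dx r u1 u) (hsW U T z u1 Q s0 R b r) n)
  c0 : ∀ {u L R b W J X u' L' R' b' W' J' X'}, PX u L R b W J X → PX u' L' R' b' W' J' X' → ∀ n, ok0B n = true →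
    (X (a1 n) (a2 n) (a3 n) (a4 n) ↔ X' (a1 n) (a2 n) (a3 n) (a4 n))
  ex : ∀ {u L R b}, u ∈ Ioo u1 (u1 + 1) → L ∈ LSt DO (IPs U T (nX (Zf u1 TC z NW)) nO) u →
    R ∈ RSt DO (IPs U T (nX (Zf u1 TC z NW)) nO) u → {j | Q j s0} ⊆ b → {j | Q j L} ⊆ b → b ⊆ evs U T z u1 Q s0 →
    ∃ W J X, DtW U T NP NW TB TC z σ u1 u s0 s1 L R W J ∧ PX u L R b W J X

variable {okB ok0B : ℕ → Bool} {rB : ℕ → ℕ → ℕ}

/-- **the legal models** for the start `s0` and the end `s1` -/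
def LegW (h : Irr U T) (B : Tb NP NW TB TC) {z : ℂ} {σ : Equiv.Perm (Fin 6)} {u1 : ℝ}
    {s0 s1 : Cn NW TC × Fin 6 → SP} (X : XB U T NP NW TB TC okB ok0B rB z σ u1 s0 s1)
    (M : MdW 2 NP NW (nbf 2 TB)) : Prop :=
  ∃ (u : ℝ) (hu : u ∈ Ioo u1 (u1 + 1)) (L R : Cn NW TC × Fin 6 → SP) (b : Set X.H) (W : WD NW)
    (J : ℕ → ℕ → ℕ → ℕ) (Bx : ℕ → ℕ → ℕ → ℕ → Prop) (D : DtW U T NP NW TB TC z σ u1 u s0 s1 L R W J),
      ({j | X.Q j s0} ⊆ b ∧ {j | X.Q j L} ⊆ b ∧ b ⊆ evs U T z u1 X.Q s0) ∧ X.PX u L R b W J Bx ∧ M = mkW h B hu D Bx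

/-- the literals `P` are realised -/
def RlW (h : Irr U T) (B : Tb NP NW TB TC) {z : ℂ} {σ : Equiv.Perm (Fin 6)} {u1 : ℝ}
    {s0 s1 : Cn NW TC × Fin 6 → SP} (X : XB U T NP NW TB TC okB ok0B rB z σ u1 s0 s1) (P : List ℕ) : Prop :=
  ∃ M, LegW h B X M ∧ ∀ l ∈ P, lv M.bv l

end

end Vale.Agent.P032.H635.W
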