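import Vale.Agent.P032.H635.W.LegW

/-!
# P032: the run of the states of the wild machine between two directions of a class

* `lt_st`, `w_st` : the letters of the fixed centres in the model,
* `ok0W`, `bv_transfer`, `lv_transferW` : atoms of class 0 have the same value in all legal models,
* `okW`, `rnW`, `svW`, `bv_rn` : state atoms and their readings 0 (start), 1 (before), 2 (after), 3 (end),
* `PatW`, `pdrW` : **a set of clauses of states which holds at the start, is kept by every transition and fails at the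
  end shows that `P` is not realised**,
* `QyW`, `patW_of_q`, `qy_of_chk` : the same from queries and certificates.
-/

open Set Filter Topology Metric

noncomputable section

namespace Vale.Agent.P032.H635.W

open Vale.Agent.P032.Six Vale.Agent.P032.H892 Vale.Agent.P032.H913 Vale.Agent.P032.S5.H767 Vale.Agent.P032.H61
  Vale.Agent.P032.H357 Vale.Agent.P032.H357.MK Vale.Agent.P032.H556 Vale.Agent.P032.H515 Vale.Agent.P032.H993.MkW
open Vale.Agent.P032.H240.W (MdW lv Ho)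
open Vale.Agent.P032.H820.K (nbf En a0 a1 a2 a3 a4 ps ng)

variable {U : Fin 6 → Set ℂ} {T : ℂ → Set (Fin 6)} {NP NW TB TC : ℕ} {okB ok0B : ℕ → Bool} {rB : ℕ → ℕ → ℕ}

/-- the chosen letters of a set letter -/
def sgp (U : Fin 6 → Set ℂ) (T : ℂ → Set (Fin 6)) (x : ℂ) (p : SP) : Fin 6 × Fin 6 :=
  pick p.1 p.2 (Pal U x) (T x)

/-! ### the values in the models -/

section
variable {h : Irr U T} {B : Tb NP NW TB TC} {z : ℂ} {σ : Equiv.Perm (Fin 6)} {u1 u : ℝ} {hu : u ∈ Ioo u1 (u1 + 1)}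
  {s0 s1 L R : Cn NW TC × Fin 6 → SP} {W : WD NW} {J : ℕ → ℕ → ℕ → ℕ}
  {D : DtW U T NP NW TB TC z σ u1 u s0 s1 L R W J} {X : ℕ → ℕ → ℕ → ℕ → Prop} {t sd io q : ℕ}

theorem lt_st (c : Cn NW TC) (hsd : sd < 2) (hio : io < 2) :
    (mkW h B hu D X).LT c.val t sd io q ↔ co σ q ∈ cm io (stW s0 s1 L R c t sd) := by
  show LW σ 2 NW W io c.val t sd q ↔ _
  rw [lw_iff c.2.1]
  show co σ q ∈ W (t % 2) (fc c) t sd io ↔ _
  rw [D.hW c t sd io hsd hio]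

theorem w_st (c : Cn NW TC) (hsd : sd < 2) :
    (mkW h B hu D X).W c.val t sd io = nio σ (sgp U T (Zf u1 TC z NW c) (stW s0 s1 L R c t sd)) io := by
  show wn σ 2 NW (fun r => pw U T (fun j : Fin NW => Yt (t2 u1 u) 2 TC z j.val) (W r)) c.val t sd io = _
  rw [wn_eq c.2.1]
  have h0 := D.hW c t sd 0 hsd (by norm_num)
  have h1 := D.hW c t sd 1 hsd (by norm_num)
  have hY : Yt (t2 u1 u) 2 TC z (fc c).val = Zf u1 TC z NW c := yt_yc c.2.2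
  show no σ (pw U T (fun j : Fin NW => Yt (t2 u1 u) 2 TC z j.val) (W (t % 2)) (fc c) t sd io) = _
  unfold pw nio sgp
  simp only
  rw [h0, h1, hY]
  by_cases hio : io = 0
  · rw [if_pos hio, if_pos hio]; rfl
  · rw [if_neg hio, if_neg hio]; rfl

theorem lu_st (c : Cn NW TC) (hsd : sd < 2) : (mkW h B hu D X).LU c.val t sd q ↔
    co σ q ∈ cm 0 (stW s0 s1 L R c t sd) ∨ co σ q ∈ cm 1 (stW s0 s1 L R c t sd) := by
  unfold MdW.LU
  rw [lt_st c hsd (by norm_num), lt_st c hsd (by norm_num)]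

end

/-! ### literals of class 0 -/

/-- atoms of class 0 -/
def ok0W (ok0B : ℕ → Bool) (NW TC n : ℕ) : Bool :=
  bif Nat.beq (Nat.mod n 16) 14 then ok0B n else
  fx0 TC (Nat.mod (Nat.div n 16) 4096) &&
  (bif Nat.ble (Nat.mod n 16) 1 then
      Nat.ble 1 (Nat.mod (Nat.div n 16777216) 8) && Nat.beq (Nat.mod (Nat.mod (Nat.div n 65536) 256) 2) 0
    else bif Nat.ble (Nat.mod n 16) 3 then Nat.beq (Nat.mod (Nat.mod (Nat.div n 65536) 256) 2) 0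
    else bif Nat.ble (Nat.mod n 16) 6 then true
    else bif Nat.ble (Nat.mod n 16) 7 then
      (Nat.ble 1 (Nat.mod (Nat.div n 16777216) 8) && Nat.ble (Nat.mod (Nat.div n 16777216) 8) 2) &&
        (Nat.beq (Nat.mod (Nat.mod (Nat.div n 65536) 256) 2) 0 && Nat.ble (Nat.succ (Nat.mod (Nat.div n 16) 4096)) NW)
    else bif Nat.ble (Nat.mod n 16) 8 then
      Nat.ble 1 (Nat.mod (Nat.div n 16777216) 8) && Nat.beq (Nat.mod (Nat.mod (Nat.div n 65536) 256) 2) 0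
    else bif Nat.ble (Nat.mod n 16) 10 then
      Nat.ble (Nat.mod (Nat.div n 16777216) 8) 3 &&
        (Nat.beq (Nat.mod (Nat.mod (Nat.div n 65536) 256) 2) 0 && Nat.ble (Nat.succ (Nat.mod (Nat.div n 16) 4096)) NW)
    else bif Nat.ble (Nat.mod n 16) 11 then
      Nat.beq (Nat.mod (Nat.mod (Nat.div n 65536) 256) 2) 0 && Nat.ble (Nat.succ (Nat.mod (Nat.div n 16) 4096)) NW
    else bif Nat.ble (Nat.mod n 16) 12 then
      (Nat.beq (Nat.mod (Nat.div n 16777216) 8) 0 && Nat.ble (Nat.succ (Nat.mod (Nat.div n 65536) 256)) 6) ||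
        (Nat.ble 3 (Nat.mod (Nat.div n 16777216) 8) && Nat.ble (Nat.mod (Nat.div n 16777216) 8) 5)
    else false)

theorem ok0W_spec {n : ℕ} (h : ok0W ok0B NW TC n = true) : (a0 n = 14 ∧ ok0B n = true) ∨ (fx0 TC (a1 n) = true ∧
    (((a0 n = 0 ∨ a0 n = 1 ∨ a0 n = 8) ∧ a3 n ≠ 0 ∧ a2 n % 2 = 0) ∨ ((a0 n = 2 ∨ a0 n = 3) ∧ a2 n % 2 = 0) ∨
      (a0 n = 4 ∨ a0 n = 5 ∨ a0 n = 6) ∨ (a0 n = 7 ∧ (a3 n = 1 ∨ a3 n = 2) ∧ a2 n % 2 = 0 ∧ a1 n < NW) ∨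
      ((a0 n = 9 ∨ a0 n = 10) ∧ a3 n ≤ 3 ∧ a2 n % 2 = 0 ∧ a1 n < NW) ∨ (a0 n = 11 ∧ a2 n % 2 = 0 ∧ a1 n < NW) ∨
      (a0 n = 12 ∧ ((a3 n = 0 ∧ a2 n < 6) ∨ (a3 n = 3 ∨ a3 n = 4 ∨ a3 n = 5))))) := by
  unfold ok0W at h
  have e0 : Nat.mod n 16 = a0 n := rfl
  have e1 : Nat.mod (Nat.div n 16) 4096 = a1 n := rfl
  have e2 : Nat.mod (Nat.div n 65536) 256 = a2 n := rfl
  have e3 : Nat.mod (Nat.div n 16777216) 8 = a3 n := rfl
  have e4 : Nat.mod (a2 n) 2 = a2 n % 2 := rfl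
  rw [e0, e1, e2, e3, e4] at h
  simp only [Bool.cond_eq_ite, Nat.ble_eq, Nat.succ_eq_add_one, nbeq] at h
  split_ifs at h with k0 k1 k2 k3 k4 k5 k6 k7 k8
  · exact Or.inl ⟨k0, h⟩
  · rw [Bool.and_eq_true, Bool.and_eq_true, Nat.ble_eq, nbeq] at h
    right; exact ⟨h.1, Or.inl ⟨by omega, by omega, h.2.2⟩⟩
  · rw [Bool.and_eq_true, nbeq] at h
    right; exact ⟨h.1, Or.inr (Or.inl ⟨by omega, h.2⟩)⟩
  · rw [Bool.and_eq_true] at h
    right; exact ⟨h.1, Or.inr (Or.inr (Or.inl (by omega)))⟩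
  · rw [Bool.and_eq_true, Bool.and_eq_true, Bool.and_eq_true, Bool.and_eq_true, Nat.ble_eq, Nat.ble_eq, nbeq,
      Nat.ble_eq] at h
    right; exact ⟨h.1, Or.inr (Or.inr (Or.inr (Or.inl ⟨by omega, by omega, h.2.2.1, h.2.2.2⟩)))⟩
  · rw [Bool.and_eq_true, Bool.and_eq_true, Nat.ble_eq, nbeq] at h
    right; exact ⟨h.1, Or.inl ⟨by omega, by omega, h.2.2⟩⟩
  · rw [Bool.and_eq_true, Bool.and_eq_true, Bool.and_eq_true, Nat.ble_eq, nbeq, Nat.ble_eq] at h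
    right; exact ⟨h.1, Or.inr (Or.inr (Or.inr (Or.inr (Or.inl ⟨by omega, h.2.1, h.2.2.1, h.2.2.2⟩))))⟩
  · rw [Bool.and_eq_true, Bool.and_eq_true, nbeq, Nat.ble_eq] at h
    right; exact ⟨h.1, Or.inr (Or.inr (Or.inr (Or.inr (Or.inr (Or.inl ⟨by omega, h.2.1, h.2.2⟩)))))⟩
  · rw [Bool.and_eq_true, Bool.or_eq_true, Bool.and_eq_true, Bool.and_eq_true, nbeq, Nat.ble_eq, Nat.ble_eq,
      Nat.ble_eq] at h
    right
    refine ⟨h.1, Or.inr (Or.inr (Or.inr (Or.inr (Or.inr (Or.inr ⟨by omega, ?_⟩)))))⟩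
    rcases h.2 with h2 | h2
    · exact Or.inl ⟨h2.1, h2.2⟩
    · exact Or.inr (by omega)
  · rw [Bool.and_eq_true] at h
    exact absurd h.2 Bool.false_ne_true

theorem stW_even {C : Type*} {s0 s1 L R L' R' : C × Fin 6 → SP} {c : C} {t sd : ℕ} (h : t % 2 = 0) :
    stW s0 s1 L R c t sd = stW s0 s1 L' R' c t sd := by
  unfold stW
  rw [if_pos h, if_pos h]

section
variable {h : Irr U T} {B : Tb NP NW TB TC} {z : ℂ} {σ : Equiv.Perm (Fin 6)} {u1 u v : ℝ}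
  {hu : u ∈ Ioo u1 (u1 + 1)} {hv : v ∈ Ioo u1 (u1 + 1)}
  {s0 s1 L R L' R' : Cn NW TC × Fin 6 → SP} {W W' : WD NW} {J J' : ℕ → ℕ → ℕ → ℕ}
  {D : DtW U T NP NW TB TC z σ u1 u s0 s1 L R W J} {D' : DtW U T NP NW TB TC z σ u1 v s0 s1 L' R' W' J'}
  {X X' : ℕ → ℕ → ℕ → ℕ → Prop} {n : ℕ}

theorem lt_tr (c : Cn NW TC) {t sd io q : ℕ} (ht : t % 2 = 0) (hsd : sd < 2) (hio : io < 2) :
    (mkW h B hu D X).LT c.val t sd io q ↔ (mkW h B hv D' X').LT c.val t sd io q := by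
  rw [lt_st c hsd hio, lt_st c hsd hio, stW_even (L := L) (R := R) (L' := L') (R' := R') ht]

theorem w_tr (c : Cn NW TC) {t sd io : ℕ} (ht : t % 2 = 0) (hsd : sd < 2) :
    (mkW h B hu D X).W c.val t sd io = (mkW h B hv D' X').W c.val t sd io := by
  rw [w_st c hsd, w_st c hsd, stW_even (L := L) (R := R) (L' := L') (R' := R') ht]

/-- **atoms of class 0 have the same value in all models** -/
theorem bv_transfer (hX : ∀ n, ok0B n = true → (X (a1 n) (a2 n) (a3 n) (a4 n) ↔ X' (a1 n) (a2 n) (a3 n) (a4 n)))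
    (hn : ok0W ok0B NW TC n = true) : (mkW h B hu D X).bv n ↔ (mkW h B hv D' X').bv n := by
  rcases ok0W_spec hn with ⟨h14, h1⟩ | ⟨hf, h1⟩
  · have e := hX n h1
    unfold MdW.bv
    rw [h14]
    norm_num
    exact e
  have eY : Yt (t2 u1 u) 2 TC z (a1 n) = Yt (t2 u1 v) 2 TC z (a1 n) := by rw [yt_yc hf, yt_yc hf]
  have eT : ∀ q, (mkW h B hu D X).T (a1 n) q ↔ (mkW h B hv D' X').T (a1 n) q := fun q => by
    show co σ q ∈ T (Yt (t2 u1 u) 2 TC z (a1 n)) ↔ co σ q ∈ T (Yt (t2 u1 v) 2 TC z (a1 n))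
    rw [eY]
  have eV : ∀ {k t : ℕ}, k ≠ 0 → t % 2 = 0 → ∀ q, ((mkW h B hu D X).V k (a1 n) t q ↔
      (mkW h B hv D' X').V k (a1 n) t q) := fun {k t} hk ht q => by
    show Cl _ (Yt (t2 u1 u) 2 TC z (a1 n)) (t2 u1 u) k t ↔ Cl _ (Yt (t2 u1 v) 2 TC z (a1 n)) (t2 u1 v) k t
    rw [eY]; exact cl_tr hk (t2_tr ht)
  have eLT : a1 n < NW → a2 n % 2 = 0 → ∀ {sd io}, sd < 2 → io < 2 → ∀ q,
      ((mkW h B hu D X).LT (a1 n) (a2 n) sd io q ↔ (mkW h B hv D' X').LT (a1 n) (a2 n) sd io q) :=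
    fun h1 h2 {sd io} hsd hio q => lt_tr (⟨a1 n, h1, hf⟩ : Cn NW TC) h2 hsd hio
  have eLU : a1 n < NW → a2 n % 2 = 0 → ∀ {sd}, sd < 2 → ∀ q,
      ((mkW h B hu D X).LU (a1 n) (a2 n) sd q ↔ (mkW h B hv D' X').LU (a1 n) (a2 n) sd q) :=
    fun h1 h2 {sd} hsd q => by
      unfold MdW.LU
      rw [eLT h1 h2 hsd (by norm_num), eLT h1 h2 hsd (by norm_num)]
  have eW : a1 n < NW → a2 n % 2 = 0 → ∀ {sd}, sd < 2 → ∀ io, (mkW h B hu D X).W (a1 n) (a2 n) sd io =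
      (mkW h B hv D' X').W (a1 n) (a2 n) sd io := fun h1 h2 {sd} hsd io =>
    w_tr (⟨a1 n, h1, hf⟩ : Cn NW TC) h2 hsd
  have h8 : a3 n < 8 := Nat.mod_lt _ (by norm_num)
  unfold MdW.bv
  rcases h1 with ⟨h1 | h1 | h1, h2, h3⟩ | ⟨h1 | h1, h2⟩ | (h1 | h1 | h1) | ⟨h1, h2, h3, h4⟩ | ⟨h1 | h1, h2, h3, h4⟩ |
    ⟨h1, h2, h3⟩ | ⟨h1, h2⟩
  · rw [h1]
    simp only [if_true]
    exact eV h2 h3 _
  · rw [h1]
    simp only [if_true, one_ne_zero, if_false]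
    show Cl _ (Yt (t2 u1 u) 2 TC z (a1 n)) (t2 u1 u) (a3 n) (a2 n) ↔ Cl _ (Yt (t2 u1 v) 2 TC z (a1 n)) (t2 u1 v) (a3 n) (a2 n)
    rw [eY]; exact cl_tr h2 (t2_tr h3)
  · rw [h1]
    norm_num
    unfold MdW.Pu
    exact forall_congr' fun r => forall_congr' fun _ => forall_congr' fun _ => not_congr (eV h2 h3 r)
  · rw [h1]
    norm_num
    show HI _ (Yt (t2 u1 u) 2 TC z (a1 n)) (t2 u1 u) (a2 n) ↔ HI _ (Yt (t2 u1 v) 2 TC z (a1 n)) (t2 u1 v) (a2 n)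
    unfold HI
    rw [eY, t2_tr (v := v) h2]
  · rw [h1]
    norm_num
    show HI _ (Yt (t2 u1 u) 2 TC z (a1 n)) (t2 u1 u) (a2 n) ↔ HI _ (Yt (t2 u1 v) 2 TC z (a1 n)) (t2 u1 v) (a2 n)
    unfold HI
    rw [eY, t2_tr (v := v) h2]
  · rw [h1]
    norm_num
    exact eT _
  · rw [h1]
    norm_num
    show co σ _ ∈ Pal U (Yt (t2 u1 u) 2 TC z (a1 n)) ↔ co σ _ ∈ Pal U (Yt (t2 u1 v) 2 TC z (a1 n))
    rw [eY]
  · rw [h1]
    norm_num
    show Yt (t2 u1 u) 2 TC z (a1 n) ∈ XX U ↔ Yt (t2 u1 v) 2 TC z (a1 n) ∈ XX U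
    rw [eY]
  · rw [h1]
    norm_num
    rw [if_neg (show ¬ a3 n = 0 by omega), if_neg (show ¬ a3 n = 0 by omega)]
    unfold MdW.OD
    exact and_congr (eT _) (not_congr (eLU h4 h3 (by omega) _))
  · rw [h1]
    norm_num
    rw [eW h4 h3 (by omega)]
  · rw [h1]
    norm_num
    unfold MdW.L
    rw [eW h4 h3 (by omega), eW h4 h3 (by omega), eW h4 h3 (by omega)]
    exact if_tr (and_congr (eT _) (eT _))
  · rw [h1]
    norm_num
    by_cases k1 : a3 n < 4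
    · rw [if_pos k1, if_pos k1]
      exact eLT h3 h2 (by omega) (by omega) _
    · rw [if_neg k1, if_neg k1]
      by_cases k2 : a3 n < 6
      · rw [if_pos k2, if_pos k2]
        exact eLU h3 h2 (by omega) _
      · rw [if_neg k2, if_neg k2]
        unfold MdW.LE
        exact and_congr (eLU h3 h2 (by omega) _) (not_congr (eT _))
  · rw [h1]
    norm_num
    rcases h2 with ⟨h2, h3⟩ | h2 | h2 | h2
    · rw [if_pos h2, if_pos h2]
      refine (tick0 hu (a1 n) (a2 n) h3 h z TC (co σ (a4 n))).trans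
        (Iff.trans ?_ (tick0 hv (a1 n) (a2 n) h3 h z TC (co σ (a4 n))).symm)
      exact cs_tr eY u1 _ _
    · rw [h2]
      norm_num
      show AccR (shD T (Yt (t2 u1 u) 2 TC z) (a1 n) (co σ (a4 n))) (t2 u1 u 0 + (a2 n : ℕ)) ↔
        AccR (shD T (Yt (t2 u1 v) 2 TC z) (a1 n) (co σ (a4 n))) (t2 u1 v 0 + (a2 n : ℕ))
      rw [t2_zero, t2_zero]
      unfold shD
      rw [eY]
    · rw [h2]
      norm_num
      show AccL (shD T (Yt (t2 u1 u) 2 TC z) (a1 n) (co σ (a4 n))) (t2 u1 u 0 + (a2 n : ℕ) + 1) ↔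
        AccL (shD T (Yt (t2 u1 v) 2 TC z) (a1 n) (co σ (a4 n))) (t2 u1 v 0 + (a2 n : ℕ) + 1)
      rw [t2_zero, t2_zero]
      unfold shD
      rw [eY]
    · rw [h2]
      norm_num
      unfold MdW.Fn
      exact exists_congr fun S => and_congr Iff.rfl (forall_congr' fun q => forall_congr' fun _ =>
        and_congr Iff.rfl (eT q))

end

end Vale.Agent.P032.H635.W
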